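import Vale.Agent.P022.H916.Fld

/-!
# P022-L3, chapter F: generation (helper853)

Let `r` be a homomorphism of `G_ℚ` onto a finite 2-group, with open kernel, unramified outside
`{2, 3}`. A subgroup which contains the images of a complex conjugation, of a Frobenius element and
of the inertia group at a prime above `3` is the whole group.
-/

open NumberField Matrix
open scoped Pointwise

noncomputable section

namespace Vale.Agent.P022.H853

open Vale.Agent.P022 Vale.Agent.P022.H916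

/-- a proper subgroup of a finite 2-group is contained in a subgroup of index two -/
theorem exists_index_two {G : Type*} [Group G] [Finite G] (hG : IsPGroup 2 G) {H : Subgroup G}
    (hH : H ≠ ⊤) : ∃ M : Subgroup G, H ≤ M ∧ M.Normal ∧ M.index = 2 := by
  have : Fact (Nat.Prime 2) := ⟨Nat.prime_two⟩
  have : Group.IsNilpotent G := hG.isNilpotent
  obtain ⟨M, hM, hle⟩ := (eq_top_or_exists_le_coatom H).resolve_left hH
  have hn : M.Normal :=
    Subgroup.NormalizerCondition.normal_of_coatom M Group.normalizerCondition_of_isNilpotent hM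
  refine ⟨M, hle, hn, ?_⟩
  have hq : IsPGroup 2 (G ⧸ M) := hG.to_quotient M
  have hnt : Nontrivial (G ⧸ M) := QuotientGroup.nontrivial_iff.2 hM.1
  obtain ⟨n, hn0, hcard⟩ := hq.nontrivial_iff_card.1 hnt
  obtain ⟨x, hx⟩ := exists_prime_orderOf_dvd_card' (G := G ⧸ M) 2
    (by rw [hcard]; exact dvd_pow_self 2 hn0.ne')
  have h1 : M ≤ (Subgroup.zpowers x).comap (QuotientGroup.mk' M) := by
    intro m hm
    rw [Subgroup.mem_comap]
    have : (QuotientGroup.mk' M) m = 1 := (QuotientGroup.eq_one_iff m).2 hm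
    rw [this]
    exact Subgroup.one_mem _
  obtain ⟨y, hy⟩ := QuotientGroup.mk'_surjective M x
  have hyM : y ∉ M := by
    intro h
    have : x = 1 := by rw [← hy]; exact (QuotientGroup.eq_one_iff y).2 h
    rw [this, orderOf_one] at hx
    omega
  have h2 : M < (Subgroup.zpowers x).comap (QuotientGroup.mk' M) := by
    refine lt_of_le_of_ne h1 fun h => hyM ?_
    rw [h, Subgroup.mem_comap, hy]
    exact Subgroup.mem_zpowers x
  have h3 := hM.2 _ h2
  have h4 : Subgroup.zpowers x = ⊤ := by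
    rw [eq_top_iff]
    intro z _
    obtain ⟨w, rfl⟩ := QuotientGroup.mk'_surjective M z
    have : w ∈ (Subgroup.zpowers x).comap (QuotientGroup.mk' M) := by rw [h3]; trivial
    exact this
  have h5 : Nat.card (Subgroup.zpowers x) = Nat.card (G ⧸ M) := by
    rw [h4]
    exact Subgroup.card_top
  rw [Nat.card_zpowers, hx] at h5
  rw [Subgroup.index_eq_card]
  exact h5.symm

theorem pow_odd_mod (m : ℕ) : (2 : ℤ) ^ (2 * m + 1) % 3 = 2 := by
  induction m with
  | zero => rfl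
  | succ m ih =>
    have : (2 : ℤ) ^ (2 * (m + 1) + 1) = 4 * 2 ^ (2 * m + 1) := by ring
    rw [this]
    omega

/-- **quadratic fields unramified outside `{2, 3}`**: an open subgroup of index two of `G_ℚ` cannot
contain all the inertia groups at the primes `ℓ ∤ 6`, the inertia group of one prime above `3`, a
complex conjugation and a Frobenius element at `3` -/
theorem index_two_false (U : Subgroup GQ) (hU : IsOpen (U : Set GQ)) (hn : U.Normal)
    (hi : U.index = 2)
    (hun : ∀ ℓ : ℕ, ℓ.Prime → ¬ ℓ ∣ 6 → ∃ P : Ideal (𝓞 Qb), P.IsPrime ∧ (ℓ : 𝓞 Qb) ∈ P ∧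
      ∀ g : GQ, (∀ x : 𝓞 Qb, g • x - x ∈ P) → g ∈ U)
    {c : GQ} (hc : IsConj c) (hcU : c ∈ U) {P : Ideal (𝓞 Qb)} (hP : P.IsPrime)
    (h3 : ((3 : ℕ) : 𝓞 Qb) ∈ P) (hI : ∀ g : GQ, (∀ x : 𝓞 Qb, g • x - x ∈ P) → g ∈ U)
    {σ : GQ} (hσ : ∀ x : 𝓞 Qb, σ • x - x ^ 3 ∈ P) (hσU : σ ∈ U) : False := by
  let j : ℚ →+* Qb := algebraMap ℚ Qb
  have htop : GK j = ⊤ := by
    rw [eq_top_iff]
    intro g _ x
    exact g.commutes x
  obtain ⟨L, iF, iN, iA, iG, jL, ρ, D, hGK, hker⟩ := exists_fld j U hU (by rw [htop]; exact le_top)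
    (fun g _ u hu => hn.conj_mem u hu g)
  have hcanon : iA = DivisionRing.toRatAlgebra := Subsingleton.elim _ _
  subst hcanon
  have h2 : Module.finrank ℚ L = 2 := by
    rw [← IsGalois.card_aut_eq_finrank]
    have e1 : ρ.ker = U.subgroupOf (GK j) := by
      ext g
      rw [MonoidHom.mem_ker, hker g, Subgroup.mem_subgroupOf]
    have e2 := Subgroup.index_ker ρ
    rw [e1, MonoidHom.range_eq_top.2 D.surj, Subgroup.card_top] at e2
    rw [← e2]
    show U.relIndex (GK j) = 2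
    rw [htop, Subgroup.relIndex_top_right, hi]
  -- the discriminant is a power of two, up to the sign
  have hprime : ∀ {ℓ : ℕ}, ℓ.Prime → ℓ ∣ (discr L).natAbs → ℓ = 2 := by
    intro ℓ hℓ hd
    have hd' : (ℓ : ℤ) ∣ discr L := Int.natCast_dvd.2 hd
    by_contra hne
    by_cases h6 : ℓ ∣ 6
    · have h63 : ℓ = 3 := by
        have h7 : ℓ ∣ 2 * 3 := h6
        rcases hℓ.dvd_mul.1 h7 with h | h
        · exact absurd ((Nat.prime_dvd_prime_iff_eq hℓ Nat.prime_two).1 h) hne
        · exact (Nat.prime_dvd_prime_iff_eq hℓ Nat.prime_three).1 h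
      subst h63
      obtain ⟨g, hg, hgU⟩ := exists_inertia jL h2 hd' hP h3
      rw [hGK] at hgU
      exact hgU (hI g hg)
    · obtain ⟨Q, hQ, hℓQ, hQU⟩ := hun ℓ hℓ h6
      obtain ⟨g, hg, hgU⟩ := exists_inertia jL h2 hd' hQ hℓQ
      rw [hGK] at hgU
      exact hgU (hQU g hg)
  have hd0 : discr L ≠ 0 := discr_ne_zero L
  have hpow := Nat.eq_prime_pow_of_unique_prime_dvd (Int.natAbs_ne_zero.2 hd0) hprime
  set k := (discr L).natAbs.primeFactorsList.length with hk
  obtain ⟨B⟩ := H724.exists_qb h2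
  set s : 𝓞 Qb := RingOfIntegers.mapRingHom jL B.δ with hs
  have hs2 : s ^ 2 = ((discr L : ℤ) : 𝓞 Qb) := by
    rw [hs, ← map_pow, B.δ_sq]
    simp
  have hfixU : ∀ g : GQ, g ∈ U → g • s = s := by
    intro g hg
    rw [← hGK] at hg
    apply RingOfIntegers.ext
    exact hg _
  -- it is positive
  have hpos : 0 ≤ discr L := by
    obtain ⟨φ, hφ⟩ := hc
    have e1 : φ ((s : 𝓞 Qb) : Qb) = starRingEnd ℂ (φ ((s : 𝓞 Qb) : Qb)) := by
      rw [← hφ]
      congr 1
      have := congrArg (fun z : 𝓞 Qb => (z : Qb)) (hfixU c hcU)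
      exact this.symm
    obtain ⟨a, ha⟩ := Complex.conj_eq_iff_real.1 e1.symm
    have e2 : φ ((s : 𝓞 Qb) : Qb) ^ 2 = ((discr L : ℤ) : ℂ) := by
      rw [← map_pow]
      have e3 : ((s : 𝓞 Qb) : Qb) ^ 2 = ((discr L : ℤ) : Qb) := by
        have := congrArg (fun z : 𝓞 Qb => (z : Qb)) hs2
        simpa using this
      rw [e3, map_intCast]
    rw [ha] at e2
    have e4 : a ^ 2 = ((discr L : ℤ) : ℝ) := by exact_mod_cast e2
    have e5 : (0 : ℝ) ≤ ((discr L : ℤ) : ℝ) := by rw [← e4]; positivity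
    exact_mod_cast e5
  have hD : discr L = 2 ^ k := by
    have e1 : ((discr L).natAbs : ℤ) = discr L := Int.natAbs_of_nonneg hpos
    rw [← e1, hpow]
    push_cast
    rfl
  rcases Nat.even_or_odd k with hev | hodd
  · -- the discriminant would be a square
    obtain ⟨m, hm⟩ := hev
    have e1 : (B.δ - ((2 ^ m : ℤ) : 𝓞 L)) * (B.δ + ((2 ^ m : ℤ) : 𝓞 L)) = 0 := by
      have e2 := B.δ_sq
      rw [hD, hm] at e2
      have e3 : (((2 : ℤ) ^ (m + m) : ℤ) : 𝓞 L) = ((2 ^ m : ℤ) : 𝓞 L) ^ 2 := by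
        push_cast
        ring
      rw [e3] at e2
      linear_combination e2
    rcases mul_eq_zero.1 e1 with h | h
    · have := B.ind (-B.q - 2 ^ m) 2 (by
        rw [H724.QB.δ] at h
        push_cast at h ⊢
        linear_combination h)
      exact absurd this.2 (by norm_num)
    · have := B.ind (-B.q + 2 ^ m) 2 (by
        rw [H724.QB.δ] at h
        push_cast at h ⊢
        linear_combination h)
      exact absurd this.2 (by norm_num)
  · -- `3` is inert in `ℚ(√2)`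
    have e1 := hσ s
    rw [hfixU σ hσU] at e1
    have e2 : s - s ^ 3 = s * ((1 - discr L : ℤ) : 𝓞 Qb) := by
      have : s ^ 3 = s * s ^ 2 := by ring
      rw [this, hs2]
      push_cast
      ring
    rw [e2] at e1
    obtain ⟨m, hm⟩ := hodd
    have e3 : (2 : ℤ) ^ k % 3 = 2 := by
      rw [hm]
      exact pow_odd_mod m
    rcases hP.mem_or_mem e1 with h | h
    · have h5 : ((discr L : ℤ) : 𝓞 Qb) ∈ P := by
        rw [← hs2]
        exact P.pow_mem_of_mem h 2 (by norm_num)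
      have h6 := H20.dvd_of_mem Nat.prime_three hP h3 h5
      rw [hD] at h6
      push_cast at h6
      omega
    · have h6 := H20.dvd_of_mem Nat.prime_three hP h3 h
      rw [hD] at h6
      push_cast at h6
      omega

/-- **[F-GEN]**: a subgroup of a finite 2-group quotient of `G_ℚ`, unramified outside `{2, 3}`, which
contains the images of a complex conjugation, of a Frobenius element and of the inertia group at a
prime above `3`, is the whole group -/
theorem gen {G : Type*} [Group G] [Finite G] (hG : IsPGroup 2 G) (r : GQ →* G)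
    (hr : IsOpen (r.ker : Set GQ)) (hs : Function.Surjective r)
    (hun : ∀ ℓ : ℕ, ℓ.Prime → ¬ ℓ ∣ 6 → ∀ P : Ideal (𝓞 Qb), P.IsPrime → (ℓ : 𝓞 Qb) ∈ P →
      ∀ g : GQ, (∀ x : 𝓞 Qb, g • x - x ∈ P) → r g = 1)
    {c : GQ} (hc : IsConj c) {P : Ideal (𝓞 Qb)} (hP : P.IsPrime) (h3 : ((3 : ℕ) : 𝓞 Qb) ∈ P)
    {σ : GQ} (hσ : ∀ x : 𝓞 Qb, σ • x - x ^ 3 ∈ P) (H : Subgroup G) (hcH : r c ∈ H)
    (hσH : r σ ∈ H) (hI : ∀ g : GQ, (∀ x : 𝓞 Qb, g • x - x ∈ P) → r g ∈ H) : H = ⊤ := by
  by_contra hH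
  obtain ⟨M, hle, hn, hi⟩ := exists_index_two hG hH
  refine index_two_false (M.comap r) ?_ inferInstance ?_ (fun ℓ hℓ h6 => ?_) hc (hle hcH) hP h3
    (fun g hg => hle (hI g hg)) hσ (hle hσH)
  · exact Subgroup.isOpen_mono (fun g hg => by
      rw [Subgroup.mem_comap, MonoidHom.mem_ker.1 hg]
      exact M.one_mem) hr
  · rw [Subgroup.index_comap_of_surjective M hs, hi]
  · obtain ⟨Q, hQ, hℓQ⟩ := exists_prime hℓ
    refine ⟨Q, hQ, hℓQ, fun g hg => ?_⟩
    rw [Subgroup.mem_comap, hun ℓ hℓ h6 Q hQ hℓQ g hg]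
    exact M.one_mem

/-- the same for a homomorphism to any group: the image is generated by `r c`, `r σ`, `r τ`, if the
inertia group at `P` acts through the powers of `r τ` -/
theorem gen_closure {G : Type*} [Group G] (r : GQ →* G) (hf : Finite r.range)
    (hG : IsPGroup 2 r.range) (hr : IsOpen (r.ker : Set GQ))
    (hun : ∀ ℓ : ℕ, ℓ.Prime → ¬ ℓ ∣ 6 → ∀ P : Ideal (𝓞 Qb), P.IsPrime → (ℓ : 𝓞 Qb) ∈ P →
      ∀ g : GQ, (∀ x : 𝓞 Qb, g • x - x ∈ P) → r g = 1)
    {c : GQ} (hc : IsConj c) {P : Ideal (𝓞 Qb)} (hP : P.IsPrime) (h3 : ((3 : ℕ) : 𝓞 Qb) ∈ P)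
    {σ : GQ} (hσ : ∀ x : 𝓞 Qb, σ • x - x ^ 3 ∈ P) {τ : GQ}
    (hI : ∀ g : GQ, (∀ x : 𝓞 Qb, g • x - x ∈ P) → r g ∈ Subgroup.zpowers (r τ)) :
    Subgroup.closure {r c, r σ, r τ} = r.range := by
  have hle : Subgroup.closure {r c, r σ, r τ} ≤ r.range := by
    rw [Subgroup.closure_le]
    rintro x (rfl | rfl | rfl)
    exacts [⟨c, rfl⟩, ⟨σ, rfl⟩, ⟨τ, rfl⟩]
  refine le_antisymm hle ?_
  have h := gen hG r.rangeRestrict (by rwa [MonoidHom.ker_rangeRestrict])
    r.rangeRestrict_surjective (fun ℓ hℓ h6 Q hQ hℓQ g hg =>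
      Subtype.ext (hun ℓ hℓ h6 Q hQ hℓQ g hg)) hc hP h3 hσ
    ((Subgroup.closure {r c, r σ, r τ}).subgroupOf r.range)
    (Subgroup.mem_subgroupOf.2 (Subgroup.subset_closure (by simp)))
    (Subgroup.mem_subgroupOf.2 (Subgroup.subset_closure (by simp)))
    (fun g hg => by
      rw [Subgroup.mem_subgroupOf]
      have h1 : Subgroup.zpowers (r τ) ≤ Subgroup.closure {r c, r σ, r τ} := by
        rw [Subgroup.zpowers_le]
        exact Subgroup.subset_closure (by simp)
      exact h1 (hI g hg))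
  intro x hx
  have h1 : (⟨x, hx⟩ : r.range) ∈ (Subgroup.closure {r c, r σ, r τ}).subgroupOf r.range := by
    rw [h]
    trivial
  exact Subgroup.mem_subgroupOf.1 h1

end Vale.Agent.P022.H853
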