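import Vale.Agent.P022.H916.Fld
import Vale.Agent.P022.H853.L3.Cov

/-!
# P022-L3, chapter F: Frobenius density for 2-groups (helper853)

Let `r` be a homomorphism of `G_ℚ` with open kernel whose image is a 2-group. For every `g` and every
finite set of primes there are a prime `ℓ` outside of this set, a Frobenius element `φ` at `ℓ` and an
odd `m` with `r φ = r g ^ m`.
-/

open NumberField IsDedekindDomain
open scoped Pointwise

noncomputable section

namespace Vale.Agent.P022.H853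

open Vale.Agent.P022 Vale.Agent.P022.H916

/-- the fixed field of an open subgroup -/
theorem exists_fix (U : Subgroup GQ) (hU : IsOpen (U : Set GQ)) :
    ∃ (F : Type) (_ : Field F) (_ : NumberField F) (jF : F →+* Qb), GK jF = U := by
  have hcl : IsClosed (U : Set GQ) := OpenSubgroup.isClosed ⟨U, hU⟩
  have hfix : (IntermediateField.fixedField U).fixingSubgroup = U :=
    InfiniteGalois.fixingSubgroup_fixedField ⟨U, hcl⟩
  have hfin : FiniteDimensional ℚ (FF U) := finU U hU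
  have hNF : NumberField (FF U) := { to_charZero := inferInstance, to_finiteDimensional := hfin }
  refine ⟨FF U, inferInstance, hNF, (IntermediateField.fixedField U).val.toRingHom, ?_⟩
  ext g
  constructor
  · intro h
    rw [← hfix, IntermediateField.mem_fixingSubgroup_iff]
    intro x hx
    exact h (⟨x, hx⟩ : FF U)
  · intro h x
    have h1 := x.2
    rw [IntermediateField.mem_fixedField_iff] at h1
    exact h1 _ h

theorem card_le_of_pow_eq {R : Type*} [CommRing R] [IsDomain R] {q : ℕ} (hq : 1 < q)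
    (h : ∀ x : R, x ^ q = x) : Finite R ∧ Nat.card R ≤ q := by
  classical
  let f : Polynomial R := Polynomial.X ^ q - Polynomial.X
  have hdeg : f.natDegree = q := by
    show (Polynomial.X ^ q - Polynomial.X : Polynomial R).natDegree = q
    rw [Polynomial.natDegree_sub_eq_left_of_natDegree_lt, Polynomial.natDegree_X_pow]
    rw [Polynomial.natDegree_X_pow, Polynomial.natDegree_X]
    exact hq
  have hf : f ≠ 0 := by
    intro h0
    rw [h0, Polynomial.natDegree_zero] at hdeg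
    omega
  have hmem : ∀ x : R, x ∈ f.roots.toFinset := by
    intro x
    rw [Multiset.mem_toFinset, Polynomial.mem_roots hf]
    simp [f, h x]
  have hfin : Finite R := by
    have : (Set.univ : Set R).Finite :=
      Set.Finite.subset f.roots.toFinset.finite_toSet (fun x _ => hmem x)
    exact Set.finite_univ_iff.1 this
  refine ⟨hfin, ?_⟩
  let _ : Fintype R := Fintype.ofFinite R
  rw [Nat.card_eq_fintype_card, ← Finset.card_univ]
  calc (Finset.univ : Finset R).card ≤ f.roots.toFinset.card :=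
        Finset.card_le_card (fun x _ => hmem x)
    _ ≤ f.roots.card := Multiset.toFinset_card_le _
    _ ≤ f.natDegree := Polynomial.card_roots' f
    _ = q := hdeg

section

variable {K L : Type*} [Field K] [NumberField K] [Field L] [NumberField L] [Algebra K L]
  {j : K →+* Qb} {jL : L →+* Qb} {ρ : GK j →* (L ≃ₐ[K] L)}

/-- the residue field does not grow if the elements of `𝓞 L` are fixed by the power map -/
theorem no_growth (D : Dict j jL ρ) {P : Ideal (𝓞 Qb)} (hP : P.IsPrime) {q : ℕ} (hq : 1 < q)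
    (hN : Ideal.absNorm (below j P) = q) (h : ∀ y : 𝓞 L, y ^ q - y ∈ below jL P) :
    Ideal.absNorm (below jL P) = q ∧
      ∀ y : 𝓞 L, ∃ a : 𝓞 K, y - algebraMap (𝓞 K) (𝓞 L) a ∈ below jL P := by
  have hPL : (below jL P).IsPrime := Ideal.IsPrime.comap _
  have hc := D.below_comap P
  have hR : ∀ x : 𝓞 L ⧸ below jL P, x ^ q = x := by
    intro x
    obtain ⟨y, rfl⟩ := Ideal.Quotient.mk_surjective x
    rw [← map_pow]
    exact Ideal.Quotient.eq.2 (h y)
  obtain ⟨hfin, hcard⟩ := card_le_of_pow_eq hq hR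
  let φ : (𝓞 K ⧸ below j P) →+* (𝓞 L ⧸ below jL P) :=
    Ideal.quotientMap (below jL P) (algebraMap (𝓞 K) (𝓞 L)) (le_of_eq hc.symm)
  have hφ : Function.Injective φ := Ideal.quotientMap_injective' (le_of_eq hc)
  have hcK : Nat.card (𝓞 K ⧸ below j P) = q := by
    rw [← hN, Ideal.absNorm_apply]
    rfl
  have hfinK : Finite (𝓞 K ⧸ below j P) := Finite.of_injective φ hφ
  have hbij : Function.Bijective φ := by
    refine (Nat.bijective_iff_injective_and_card φ).2 ⟨hφ, ?_⟩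
    refine le_antisymm (Nat.card_le_card_of_injective φ hφ) ?_
    rw [hcK]
    exact hcard
  refine ⟨?_, fun y => ?_⟩
  · rw [Ideal.absNorm_apply]
    show Nat.card (𝓞 L ⧸ below jL P) = q
    rw [← hcK]
    exact (Nat.card_congr (Equiv.ofBijective φ hbij)).symm
  · obtain ⟨x, hx⟩ := hbij.2 (Ideal.Quotient.mk _ y)
    obtain ⟨a, rfl⟩ := Ideal.Quotient.mk_surjective x
    refine ⟨a, ?_⟩
    rw [← Ideal.Quotient.eq]
    rw [← hx]
    rfl

/-- **a prime of prime norm of `K` which is not in a finite set and which does not split in the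
quadratic extension `L`** -/
theorem frob_not_mem (D : Dict j jL ρ) {s : GK j} (hs : (s : GQ) ∉ GK jL)
    (hn : ∀ x ∈ GK j, ∀ u ∈ GK jL, x * u * x⁻¹ ∈ GK jL) (S : Finset ℕ) (hS0 : 0 ∉ S) :
    ∃ ℓ : ℕ, ℓ.Prime ∧ ℓ ∉ S ∧ ∃ P : Ideal (𝓞 Qb), P.IsPrime ∧ (ℓ : 𝓞 Qb) ∈ P ∧ ∃ φ : GK j,
      (∀ x : 𝓞 Qb, (φ : GQ) • x - x ^ ℓ ∈ P) ∧ (φ : GQ) ∉ GK jL := by
  -- an integer of `L` moved by `s`
  obtain ⟨θ, hθ⟩ : ∃ θ : 𝓞 L, θ - ρ s • θ ≠ 0 := by
    by_contra hcon
    push Not at hcon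
    apply hs
    rw [← D.ker]
    apply AlgEquiv.ext
    intro x
    obtain ⟨a, b, hb, rfl⟩ := IsFractionRing.div_surjective (A := 𝓞 L) x
    have ha' : ρ s (algebraMap (𝓞 L) L a) = algebraMap (𝓞 L) L a := by
      have := congrArg (fun z : 𝓞 L => (z : L)) (sub_eq_zero.1 (hcon a))
      exact this.symm
    have hb' : ρ s (algebraMap (𝓞 L) L b) = algebraMap (𝓞 L) L b := by
      have := congrArg (fun z : 𝓞 L => (z : L)) (sub_eq_zero.1 (hcon b))
      exact this.symm
    rw [map_div₀, ha', hb']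
    rfl
  -- the bad primes
  let Bad : Set (HeightOneSpectrum (𝓞 K)) := (⋃ n ∈ S, {v | ((n : ℕ) : 𝓞 K) ∈ v.asIdeal}) ∪
    ⋃ Q ∈ {Q : HeightOneSpectrum (𝓞 L) | θ - ρ s • θ ∈ Q.asIdeal},
      {v : HeightOneSpectrum (𝓞 K) | Q.asIdeal.comap (algebraMap (𝓞 K) (𝓞 L)) = v.asIdeal}
  have hBad : Bad.Finite := by
    refine Set.Finite.union (Set.Finite.biUnion S.finite_toSet fun n hn => ?_)
      (Set.Finite.biUnion (Cov.finite_bad L _ hθ) fun Q _ => ?_)
    · refine Cov.finite_bad K _ ?_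
      have : n ≠ 0 := fun h => hS0 (h ▸ hn)
      exact_mod_cast this
    · refine Set.Subsingleton.finite ?_
      intro v hv w hw
      apply HeightOneSpectrum.ext
      rw [← (hv : _ = _), ← (hw : _ = _)]
  obtain ⟨v, hv, hvp, hnc⟩ : ∃ v : HeightOneSpectrum (𝓞 K), v ∉ Bad ∧
      (Ideal.absNorm v.asIdeal).Prime ∧ ¬ ∃ A : Finset (HeightOneSpectrum (𝓞 L)), 2 ≤ A.card ∧
        ∀ Q ∈ A, Q.asIdeal.comap (algebraMap (𝓞 K) (𝓞 L)) = v.asIdeal ∧
          Ideal.absNorm Q.asIdeal = Ideal.absNorm v.asIdeal := by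
    by_contra hcon
    push Not at hcon
    have h1 := Cov.one_le_sum_of_cover_aux K (fun _ : Unit => L) (fun _ => 2) (fun _ => by norm_num)
      Bad hBad (fun p hp hpp => by
        obtain ⟨A, hA, h⟩ := hcon p hp hpp
        exact ⟨(), A, hA, h⟩)
    norm_num at h1
  obtain ⟨P, hP, hPv⟩ := exists_above j v.asIdeal v.isPrime
  set ℓ := Ideal.absNorm v.asIdeal with hℓ
  have hlK : (ℓ : 𝓞 K) ∈ v.asIdeal := Ideal.absNorm_mem _
  have hlP : (ℓ : 𝓞 Qb) ∈ P := by
    rw [← hPv] at hlK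
    have h1 : RingOfIntegers.mapRingHom j (ℓ : 𝓞 K) ∈ P := hlK
    rwa [map_natCast] at h1
  have hlS : ℓ ∉ S := fun h => hv (Or.inl (Set.mem_biUnion h hlK))
  obtain ⟨φ, hφ⟩ := exists_frob j hP hvp hlP
  rw [hPv] at hφ
  refine ⟨ℓ, hvp, hlS, P, hP, hlP, φ, hφ, fun hφL => hnc ?_⟩
  -- the two primes above
  have step : ∀ (x : GK j), Ideal.absNorm (below jL ((x : GQ) • P)) = ℓ ∧
      (∀ y : 𝓞 L, ∃ a : 𝓞 K, y - algebraMap (𝓞 K) (𝓞 L) a ∈ below jL ((x : GQ) • P)) ∧
      (below jL ((x : GQ) • P)).comap (algebraMap (𝓞 K) (𝓞 L)) = v.asIdeal := by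
    intro x
    have hxP : ((x : GQ) • P).IsPrime := inferInstance
    have hb : below j ((x : GQ) • P) = v.asIdeal := by
      rw [← hPv]
      ext a
      show RingOfIntegers.mapRingHom j a ∈ (x : GQ) • P ↔ RingOfIntegers.mapRingHom j a ∈ P
      rw [Ideal.mem_pointwise_smul_iff_inv_smul_mem]
      have : (x : GQ)⁻¹ • RingOfIntegers.mapRingHom j a = RingOfIntegers.mapRingHom j a := by
        apply RingOfIntegers.ext
        exact ((GK j).inv_mem x.2) a
      rw [this]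
    have h1 : ∀ y : 𝓞 L, y ^ ℓ - y ∈ below jL ((x : GQ) • P) := by
      intro y
      show RingOfIntegers.mapRingHom jL (y ^ ℓ - y) ∈ (x : GQ) • P
      rw [Ideal.mem_pointwise_smul_iff_inv_smul_mem, map_sub, map_pow, smul_sub, smul_pow']
      have h2 := hφ ((x : GQ)⁻¹ • RingOfIntegers.mapRingHom jL y)
      have h3 : (φ : GQ) • ((x : GQ)⁻¹ • RingOfIntegers.mapRingHom jL y) =
          (x : GQ)⁻¹ • RingOfIntegers.mapRingHom jL y := by
        have h4 := hn (x : GQ) x.2 _ hφL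
        have h5 : ((x : GQ) * (φ : GQ) * (x : GQ)⁻¹) • RingOfIntegers.mapRingHom jL y =
            RingOfIntegers.mapRingHom jL y := by
          apply RingOfIntegers.ext
          exact h4 y
        rw [smul_smul]
        have h6 : (φ : GQ) * (x : GQ)⁻¹ = (x : GQ)⁻¹ * ((x : GQ) * (φ : GQ) * (x : GQ)⁻¹) := by
          group
        rw [h6, mul_smul, h5]
      rw [h3] at h2
      have := P.neg_mem h2
      rwa [neg_sub] at this
    have h7 := no_growth D hxP hvp.one_lt (by rw [hb]) h1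
    exact ⟨h7.1, h7.2, by rw [D.below_comap, hb]⟩
  have hne0 : ∀ x : GK j, below jL ((x : GQ) • P) ≠ ⊥ := by
    intro x h0
    have h1 := (step x).1
    rw [h0, Ideal.absNorm_bot] at h1
    exact hvp.ne_zero h1.symm
  let Q : GK j → HeightOneSpectrum (𝓞 L) := fun x =>
    ⟨below jL ((x : GQ) • P), Ideal.IsPrime.comap _, hne0 x⟩
  have hQ : Q 1 ≠ Q s := by
    intro he
    have he' : below jL (((1 : GK j) : GQ) • P) = below jL ((s : GQ) • P) :=
      congrArg HeightOneSpectrum.asIdeal he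
    have h1 : ((1 : GK j) : GQ) • P = P := one_smul _ _
    rw [h1, D.below_smul] at he'
    obtain ⟨a, ha⟩ := (step 1).2.1 θ
    rw [h1] at ha
    have h2 : ρ s • (θ - algebraMap (𝓞 K) (𝓞 L) a) ∈ ρ s • below jL P :=
      Ideal.smul_mem_pointwise_smul _ _ _ ha
    rw [← he', smul_sub] at h2
    have h3 : ρ s • algebraMap (𝓞 K) (𝓞 L) a = algebraMap (𝓞 K) (𝓞 L) a := by
      apply RingOfIntegers.ext
      exact (ρ s).commutes _
    rw [h3] at h2
    have h4 : θ - ρ s • θ ∈ below jL P := by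
      have := (below jL P).sub_mem ha h2
      simpa using this
    apply hv
    refine Or.inr (Set.mem_biUnion (x := Q 1) ?_ (step 1).2.2)
    show θ - ρ s • θ ∈ below jL (((1 : GK j) : GQ) • P)
    rw [h1]
    exact h4
  classical
  refine ⟨{Q 1, Q s}, by rw [Finset.card_pair hQ], ?_⟩
  intro R hR
  rw [Finset.mem_insert, Finset.mem_singleton] at hR
  rcases hR with rfl | rfl
  · exact ⟨(step 1).2.2, (step 1).1⟩
  · exact ⟨(step s).2.2, (step s).1⟩

end

/-- primes of prime norm of `K` outside of a finite set -/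
theorem frob_any {K : Type} [Field K] [NumberField K] (j : K →+* Qb) (S : Finset ℕ)
    (hS0 : 0 ∉ S) : ∃ ℓ : ℕ, ℓ.Prime ∧ ℓ ∉ S ∧ ∃ P : Ideal (𝓞 Qb), P.IsPrime ∧ (ℓ : 𝓞 Qb) ∈ P ∧
      ∃ φ : GK j, ∀ x : 𝓞 Qb, (φ : GQ) • x - x ^ ℓ ∈ P := by
  let Bad : Set (HeightOneSpectrum (𝓞 K)) := ⋃ n ∈ S, {v | ((n : ℕ) : 𝓞 K) ∈ v.asIdeal}
  have hBad : Bad.Finite := by
    refine Set.Finite.biUnion S.finite_toSet fun n hn => ?_
    refine Cov.finite_bad K _ ?_
    have : n ≠ 0 := fun h => hS0 (h ▸ hn)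
    exact_mod_cast this
  obtain ⟨v, hv, hvp⟩ : ∃ v : HeightOneSpectrum (𝓞 K), v ∉ Bad ∧
      (Ideal.absNorm v.asIdeal).Prime := by
    by_contra hcon
    push Not at hcon
    have h1 := Cov.one_le_sum_of_cover_aux K (fun _ : Unit => K) (fun _ => 2) (fun _ => by norm_num)
      Bad hBad (fun p hp hpp => absurd hpp (hcon p hp))
    norm_num at h1
  obtain ⟨P, hP, hPv⟩ := exists_above j v.asIdeal v.isPrime
  have hlK : ((Ideal.absNorm v.asIdeal : ℕ) : 𝓞 K) ∈ v.asIdeal := Ideal.absNorm_mem _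
  have hlP : ((Ideal.absNorm v.asIdeal : ℕ) : 𝓞 Qb) ∈ P := by
    rw [← hPv] at hlK
    have h1 : RingOfIntegers.mapRingHom j ((Ideal.absNorm (below j P) : ℕ) : 𝓞 K) ∈ P := hlK
    rwa [map_natCast, hPv] at h1
  obtain ⟨φ, hφ⟩ := exists_frob j hP hvp hlP
  rw [hPv] at hφ
  exact ⟨_, hvp, fun h => hv (Set.mem_biUnion h hlK), P, hP, hlP, φ, hφ⟩

theorem odd_nat {G : Type*} [Group G] {x : G} {a : ℕ} (hx : x ^ 2 ^ a = 1) {k : ℤ} (hk : Odd k) :
    ∃ m : ℕ, Odd m ∧ x ^ m = x ^ k := by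
  have h2 : (0 : ℤ) < 2 ^ (a + 1) := by positivity
  have h0 := Int.emod_nonneg k h2.ne'
  refine ⟨(k % 2 ^ (a + 1)).toNat, ?_, ?_⟩
  · rw [← Int.odd_coe_nat, Int.toNat_of_nonneg h0]
    have h3 : k % 2 ^ (a + 1) = k - 2 * (2 ^ a * (k / 2 ^ (a + 1))) := by
      have := Int.emod_add_mul_ediv k (2 ^ (a + 1))
      rw [pow_succ] at this ⊢
      linear_combination this
    rw [h3]
    exact hk.sub_even (even_two_mul _)
  · rw [← zpow_natCast, Int.toNat_of_nonneg h0]
    have h3 : k = k % 2 ^ (a + 1) + (2 ^ a : ℕ) * (2 * (k / 2 ^ (a + 1))) := by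
      have := Int.emod_add_mul_ediv k (2 ^ (a + 1))
      push_cast
      rw [pow_succ] at this ⊢
      linear_combination -this
    conv_rhs => rw [h3, zpow_add, zpow_mul, zpow_natCast, hx, one_zpow, mul_one]

/-- **[F-DENS], Frobenius density for 2-groups**: for a homomorphism `r` of `G_ℚ` with open kernel
whose image is a 2-group, every `g` and every finite set `S` of numbers there are a prime `ℓ ∉ S`, a
Frobenius element `φ` at (a prime `P` above) `ℓ` and an odd `m` with `r φ = r g ^ m` -/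
theorem dens {G : Type*} [Group G] (r : GQ →* G) (hr : IsOpen (r.ker : Set GQ))
    (hG : ∀ g : GQ, ∃ a : ℕ, r g ^ 2 ^ a = 1) (g : GQ) (S : Finset ℕ) :
    ∃ ℓ : ℕ, ℓ.Prime ∧ ℓ ∉ S ∧ ∃ P : Ideal (𝓞 Qb), P.IsPrime ∧ (ℓ : 𝓞 Qb) ∈ P ∧ ∃ φ : GQ,
      (∀ x : 𝓞 Qb, φ • x - x ^ ℓ ∈ P) ∧ ∃ m : ℕ, Odd m ∧ r φ = r g ^ m := by
  classical
  obtain ⟨a, ha⟩ := hG g
  let CU : Subgroup GQ := (Subgroup.zpowers (r g)).comap r
  let C0 : Subgroup GQ := (Subgroup.zpowers (r g ^ 2)).comap r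
  have hCU : IsOpen (CU : Set GQ) := Subgroup.isOpen_mono (fun x hx => by
    show r x ∈ Subgroup.zpowers (r g)
    rw [MonoidHom.mem_ker.1 hx]
    exact Subgroup.one_mem _) hr
  have hC0 : IsOpen (C0 : Set GQ) := Subgroup.isOpen_mono (fun x hx => by
    show r x ∈ Subgroup.zpowers (r g ^ 2)
    rw [MonoidHom.mem_ker.1 hx]
    exact Subgroup.one_mem _) hr
  have hS0 : 0 ∉ S.erase 0 := Finset.notMem_erase 0 S
  obtain ⟨F, iF, iN, jF, hGF⟩ := exists_fix CU hCU
  by_cases h1 : r g = 1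
  · obtain ⟨ℓ, hℓ, hℓS, P, hP, hlP, φ, hφ⟩ := frob_any jF (S.erase 0) hS0
    refine ⟨ℓ, hℓ, fun h => hℓS (Finset.mem_erase.2 ⟨hℓ.ne_zero, h⟩), P, hP, hlP, φ, hφ, 1,
      odd_one, ?_⟩
    have h2 : (φ : GQ) ∈ CU := by rw [← hGF]; exact φ.2
    have h3 : r (φ : GQ) ∈ Subgroup.zpowers (r g) := h2
    rw [h1, Subgroup.zpowers_one_eq_bot, Subgroup.mem_bot] at h3
    rw [h3, h1, one_pow]
  · have hle : C0 ≤ GK jF := by
      rw [hGF]
      intro x hx
      obtain ⟨k, hk⟩ := (hx : r x ∈ Subgroup.zpowers (r g ^ 2))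
      refine ⟨2 * k, ?_⟩
      rw [← hk]
      show r g ^ (2 * k) = (r g ^ 2) ^ k
      rw [zpow_mul]
      norm_cast
    have hcomm : ∀ x ∈ GK jF, ∀ u ∈ C0, x * u * x⁻¹ ∈ C0 := by
      intro x hx u hu
      have hx' : x ∈ CU := by rw [← hGF]; exact hx
      have hu' : u ∈ CU := by rw [← hGF]; exact hle hu
      obtain ⟨k, hk⟩ := (hx' : r x ∈ Subgroup.zpowers (r g))
      obtain ⟨l, hl⟩ := (hu' : r u ∈ Subgroup.zpowers (r g))
      have h2 : r (x * u * x⁻¹) = r u := by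
        rw [map_mul, map_mul, map_inv, ← hk, ← hl]
        show r g ^ k * r g ^ l * (r g ^ k)⁻¹ = r g ^ l
        rw [← zpow_add, ← zpow_neg, ← zpow_add]
        congr 1
        ring
      show r (x * u * x⁻¹) ∈ Subgroup.zpowers (r g ^ 2)
      rw [h2]
      exact hu
    obtain ⟨L, iL, iNL, iA, iG, jL, ρ, D, hGL, -⟩ := exists_fld jF C0 hC0 hle hcomm
    have hgF : g ∈ GK jF := by
      rw [hGF]
      exact Subgroup.mem_zpowers (r g)
    have hgL : ((⟨g, hgF⟩ : GK jF) : GQ) ∉ GK jL := by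
      rw [hGL]
      intro h2
      obtain ⟨k, hk⟩ := (h2 : r g ∈ Subgroup.zpowers (r g ^ 2))
      have h3 : (r g) ^ (2 * k - 1) = 1 := by
        have hk' : (r g ^ 2) ^ k = r g := hk
        have h4 : r g ^ (2 * k) = r g := by
          have h8 : r g ^ (2 * k) = (r g ^ 2) ^ k := by
            rw [zpow_mul]
            norm_cast
          rw [h8, hk']
        rw [zpow_sub, h4, zpow_one, mul_inv_cancel]
      have h5 : (orderOf (r g) : ℤ) ∣ 2 * k - 1 := orderOf_dvd_iff_zpow_eq_one.2 h3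
      have h6 : orderOf (r g) ∣ 2 ^ a := orderOf_dvd_of_pow_eq_one ha
      obtain ⟨b, -, hb⟩ := (Nat.dvd_prime_pow Nat.prime_two).1 h6
      rcases b with _ | b
      · rw [pow_zero] at hb
        exact h1 (orderOf_eq_one_iff.1 hb)
      · rw [hb] at h5
        have h7 : (2 : ℤ) ∣ 2 * k - 1 := by
          refine dvd_trans ?_ h5
          push_cast
          exact dvd_pow_self 2 (by omega)
        omega
    obtain ⟨ℓ, hℓ, hℓS, P, hP, hlP, φ, hφ, hφL⟩ := frob_not_mem D hgL (by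
      rw [hGL]
      exact hcomm) (S.erase 0) hS0
    refine ⟨ℓ, hℓ, fun h => hℓS (Finset.mem_erase.2 ⟨hℓ.ne_zero, h⟩), P, hP, hlP, φ, hφ, ?_⟩
    have h2 : (φ : GQ) ∈ CU := by rw [← hGF]; exact φ.2
    obtain ⟨k, hk⟩ := (h2 : r φ ∈ Subgroup.zpowers (r g))
    have hk' : r g ^ k = r φ := hk
    have hodd : Odd k := by
      by_contra hcon
      rw [Int.not_odd_iff_even] at hcon
      obtain ⟨l, hl⟩ := hcon
      apply hφL
      rw [hGL]
      refine ⟨l, ?_⟩
      show (r g ^ 2) ^ l = r φ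
      rw [← hk', hl, ← two_mul, zpow_mul]
      norm_cast
    obtain ⟨m, hm, hm2⟩ := odd_nat ha hodd
    exact ⟨m, hm, by rw [hm2, hk']⟩

end Vale.Agent.P022.H853
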