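import Vale.Agent.P022.H916.Fld

/-!
# P022-L3, chapter F: the cyclotomic characters of `G_ℚ` (helper853)
-/

open NumberField
open scoped Pointwise

noncomputable section

namespace Vale.Agent.P022.H853

open Vale.Agent.P022 Vale.Agent.P022.H916

section

variable (m : ℕ) [NeZero m]

theorem exists_prim : ∃ ζ : Qb, IsPrimitiveRoot ζ m := by
  have : NeZero (m : Qb) := ⟨by exact_mod_cast (NeZero.ne m)⟩
  exact HasEnoughRootsOfUnity.exists_primitiveRoot Qb m

/-- a primitive `m`-th root of unity -/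
def zt : Qb := (exists_prim m).choose

theorem zt_prim : IsPrimitiveRoot (zt m) m := (exists_prim m).choose_spec

/-- the cyclotomic character modulo `m` -/
def cyc : GQ →* (ZMod m)ˣ := (zt_prim m).autToPow ℚ

variable {m}

theorem cyc_spec (g : GQ) {μ : Qb} (hμ : μ ^ m = 1) : g μ = μ ^ (cyc m g : ZMod m).val := by
  obtain ⟨i, -, rfl⟩ := (zt_prim m).eq_pow_of_pow_eq_one hμ
  have h := (zt_prim m).autToPow_spec ℚ g
  rw [map_pow, ← h, ← pow_mul, ← pow_mul, mul_comm]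
  rfl

variable (m) in
theorem isOpen_cyc : IsOpen ((cyc m).ker : Set GQ) := by
  have h1 : IsOpen ((MulAction.stabilizer GQ (zt m) : Subgroup GQ) : Set GQ) :=
    stabilizer_isOpen_of_isIntegral (zt m)
  refine Subgroup.isOpen_mono (fun g hg => ?_) h1
  rw [MonoidHom.mem_ker]
  have h2 : g (zt m) = zt m := hg
  have h3 := cyc_spec g (zt_prim m).pow_eq_one
  rw [h2] at h3
  have h4 : zt m ^ 1 = zt m ^ (cyc m g : ZMod m).val := by rw [pow_one]; exact h3
  rcases eq_or_ne m 1 with h1 | h1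
  · subst h1
    exact Subsingleton.elim _ _
  · have hm : 1 < m := by
      have := NeZero.ne m
      omega
    have h5 := (zt_prim m).pow_inj hm (ZMod.val_lt _) h4
    have : Fact (1 < m) := ⟨hm⟩
    apply Units.ext
    apply ZMod.val_injective m
    rw [← h5, Units.val_one, ZMod.val_one]

/-- an element which acts as the `q`-th power modulo a prime not above `m'` -/
theorem cyc_of_pow {m' : ℕ} [NeZero m'] (hd : m' ∣ m) {P : Ideal (𝓞 Qb)} (_hP : P.IsPrime)
    (hmP : (m' : 𝓞 Qb) ∉ P) {q : ℕ} {g : GQ} (hg : ∀ x : 𝓞 Qb, g • x - x ^ q ∈ P) :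
    (cyc m g : ZMod m).val ≡ q [MOD m'] := by
  obtain ⟨k, hk⟩ := hd
  have hk0 : k ≠ 0 := by
    rintro rfl
    exact NeZero.ne m (by rw [hk, mul_zero])
  have hμ : IsPrimitiveRoot (zt m ^ k) m' :=
    (zt_prim m).pow (Nat.pos_of_ne_zero (NeZero.ne m)) (by rw [hk, mul_comm])
  have hint : IsIntegral ℤ (zt m ^ k) := hμ.isIntegral (Nat.pos_of_ne_zero (NeZero.ne m'))
  let z : 𝓞 Qb := ⟨zt m ^ k, hint⟩
  have hz : IsPrimitiveRoot z m' := by
    refine IsPrimitiveRoot.of_map_of_injective (f := algebraMap (𝓞 Qb) Qb) ?_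
      RingOfIntegers.coe_injective
    exact hμ
  have hgz : g • z = z ^ (cyc m g : ZMod m).val := by
    apply RingOfIntegers.ext
    show g (zt m ^ k) = (zt m ^ k) ^ (cyc m g : ZMod m).val
    exact cyc_spec g (by rw [← pow_mul, mul_comm, pow_mul, (zt_prim m).pow_eq_one, one_pow])
  have hfac : ∀ r : ℕ, 0 < r → r < m' → (1 - z ^ r) ∉ P := by
    intro r hr hrm hmem
    apply hmP
    obtain ⟨n, hn⟩ : ∃ n, m' = n + 1 := ⟨m' - 1, by omega⟩
    have h1 : ∏ i ∈ Finset.range n, (1 - z ^ (i + 1)) = n + 1 :=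
      IsPrimitiveRoot.prod_one_sub_pow_eq_order (hn ▸ hz)
    have h2 : (m' : 𝓞 Qb) = ∏ i ∈ Finset.range n, (1 - z ^ (i + 1)) := by
      rw [h1, hn]
      push_cast
      rfl
    rw [h2]
    have h3 : (1 - z ^ r) ∣ ∏ i ∈ Finset.range n, (1 - z ^ (i + 1)) := by
      have := Finset.dvd_prod_of_mem (fun i => 1 - z ^ (i + 1))
        (show r - 1 ∈ Finset.range n by rw [Finset.mem_range]; omega)
      rwa [Nat.sub_add_cancel hr] at this
    obtain ⟨w, hw⟩ := h3
    rw [hw]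
    exact P.mul_mem_right _ hmem
  have hzb : IsPrimitiveRoot (Ideal.Quotient.mk P z) m' := by
    refine ⟨by rw [← map_pow, hz.pow_eq_one, map_one], fun l hl => ?_⟩
    by_contra hndvd
    have hr : 0 < l % m' := Nat.pos_of_ne_zero fun h => hndvd (Nat.dvd_of_mod_eq_zero h)
    refine hfac (l % m') hr (Nat.mod_lt _ (Nat.pos_of_ne_zero (NeZero.ne m'))) ?_
    rw [← Ideal.Quotient.eq_zero_iff_mem, map_sub, map_one, map_pow]
    have h4 : (Ideal.Quotient.mk P z) ^ l = (Ideal.Quotient.mk P z) ^ (l % m') := by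
      conv_lhs => rw [← Nat.div_add_mod l m', pow_add, pow_mul, ← map_pow, hz.pow_eq_one, map_one,
        one_pow, one_mul]
    rw [← h4, hl, sub_self]
  have h5 := hg z
  rw [hgz] at h5
  have h6 : (Ideal.Quotient.mk P z) ^ (cyc m g : ZMod m).val = (Ideal.Quotient.mk P z) ^ q := by
    rw [← map_pow, ← map_pow]
    exact Ideal.Quotient.eq.2 h5
  obtain ⟨u, hu⟩ := hzb.isUnit (NeZero.ne m')
  rw [← hu] at h6 hzb
  have h7 : u ^ (cyc m g : ZMod m).val = u ^ q := by
    apply Units.ext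
    push_cast
    exact h6
  rw [pow_eq_pow_iff_modEq] at h7
  have h8 : IsPrimitiveRoot u m' := IsPrimitiveRoot.coe_units_iff.1 hzb
  rwa [← h8.eq_orderOf] at h7

/-- Frobenius elements -/
theorem cyc_frob {ℓ : ℕ} (hℓ : ℓ.Prime) (hm : ¬ ℓ ∣ m) {g : GQ} (hg : IsFrob ℓ g) :
    (cyc m g : ZMod m) = ℓ := by
  obtain ⟨P, hP, hlP, hx⟩ := hg
  have hmP : (m : 𝓞 Qb) ∉ P := by
    intro h
    have := H20.dvd_of_mem hℓ hP hlP (d := (m : ℤ)) (by exact_mod_cast h)
    exact hm (by exact_mod_cast this)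
  have h := cyc_of_pow (m := m) dvd_rfl hP hmP hx
  rw [← ZMod.natCast_zmod_val ((cyc m g : (ZMod m)ˣ) : ZMod m)]
  exact (ZMod.natCast_eq_natCast_iff _ _ _).2 h

/-- complex conjugation -/
theorem cyc_conj {c : GQ} (hc : IsConj c) : (cyc m c : ZMod m) = -1 := by
  obtain ⟨φ, hφ⟩ := hc
  have h1 := cyc_spec c (zt_prim m).pow_eq_one
  have h2 : (φ (zt m)) ^ m = 1 := by rw [← map_pow, (zt_prim m).pow_eq_one, map_one]
  have h3 : ‖φ (zt m)‖ = 1 := Complex.norm_eq_one_of_pow_eq_one h2 (NeZero.ne m)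
  have h4 : starRingEnd ℂ (φ (zt m)) = (φ (zt m))⁻¹ := (Complex.inv_eq_conj h3).symm
  have h5 : φ (c (zt m) * zt m) = 1 := by
    rw [map_mul, hφ, h4]
    have : φ (zt m) ≠ 0 := by
      intro h
      rw [h, norm_zero] at h3
      exact zero_ne_one h3
    field_simp
  have h6 : c (zt m) * zt m = 1 := φ.injective (by rw [h5, map_one])
  rw [h1, ← pow_succ] at h6
  have h7 := (zt_prim m).dvd_of_pow_eq_one _ h6
  have h8 : (((cyc m c : ZMod m).val + 1 : ℕ) : ZMod m) = 0 := (ZMod.natCast_eq_zero_iff _ _).2 h7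
  push_cast at h8
  rw [ZMod.natCast_zmod_val] at h8
  exact eq_neg_of_add_eq_zero_left h8

variable (m) in
/-- compatibility -/
theorem cyc_mod {m' : ℕ} [NeZero m'] (hd : m' ∣ m) (g : GQ) :
    (cyc m g : ZMod m).val ≡ (cyc m' g : ZMod m').val [MOD m'] := by
  obtain ⟨k, hk⟩ := hd
  have h1 := cyc_spec g (zt_prim m').pow_eq_one
  have h2 : zt m' ^ m = 1 := by rw [hk, pow_mul, (zt_prim m').pow_eq_one, one_pow]
  have h3 := cyc_spec g h2
  rw [h3] at h1
  have hz := zt_prim m'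
  obtain ⟨u, hu⟩ := hz.isUnit (NeZero.ne m')
  rw [← hu] at h1 hz
  have h7 : u ^ (cyc m g : ZMod m).val = u ^ (cyc m' g : ZMod m').val := by
    apply Units.ext
    push_cast
    exact h1
  rw [pow_eq_pow_iff_modEq] at h7
  have h8 : IsPrimitiveRoot u m' := IsPrimitiveRoot.coe_units_iff.1 hz
  rwa [← h8.eq_orderOf] at h7

end

theorem cyc_three (g : GQ) : cyc 3 g = 1 ∨ cyc 3 g = -1 := by
  generalize cyc 3 g = u
  revert u
  decide

theorem cyc_three_aux {s : Qb} (hs : s ^ 2 = -3) :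
    ((-1 + s) / 2) ^ 3 = 1 ∧ ((-1 + s) / 2) ^ 2 = (-1 - s) / 2 ∧ (-1 + s) / 2 ≠ (-1 - s) / 2 := by
  have hs0 : s ≠ 0 := by
    rintro rfl
    norm_num at hs
  refine ⟨?_, ?_, fun h => hs0 ?_⟩
  · have : ((-1 + s) / 2) ^ 3 - 1 = (s ^ 2 + 3) * (s - 3) / 8 := by ring
    rw [hs] at this
    rw [← sub_eq_zero, this]
    ring
  · have : ((-1 + s) / 2) ^ 2 - (-1 - s) / 2 = (s ^ 2 + 3) / 4 := by ring
    rw [hs] at this
    rw [← sub_eq_zero, this]
    ring
  · have h2 : (-1 + s) - (-1 - s) = 0 := by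
      have : (-1 + s) - (-1 - s) = 2 * ((-1 + s) / 2 - (-1 - s) / 2) := by ring
      rw [this, h, sub_self, mul_zero]
    have h3 : 2 * s = 0 := by rw [← h2]; ring
    exact (mul_eq_zero.1 h3).resolve_left two_ne_zero

/-- elements fixing `√-3` -/
theorem cyc_three_one {s : Qb} (hs : s ^ 2 = -3) {g : GQ} (hg : g s = s) : cyc 3 g = 1 := by
  obtain ⟨h1, h2, h3⟩ := cyc_three_aux hs
  refine (cyc_three g).resolve_right fun h => h3 ?_
  have h4 := cyc_spec g h1
  rw [h, show (((-1 : (ZMod 3)ˣ) : ZMod 3)).val = 2 from by decide, h2, map_div₀, map_add, map_neg,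
    map_one, hg, map_ofNat] at h4
  exact h4

/-- elements moving `√-3` -/
theorem cyc_three_neg {s : Qb} (hs : s ^ 2 = -3) {g : GQ} (hg : g s = -s) : cyc 3 g = -1 := by
  obtain ⟨h1, h2, h3⟩ := cyc_three_aux hs
  refine (cyc_three g).resolve_left fun h => h3 ?_
  have h4 := cyc_spec g h1
  rw [h, show (((1 : (ZMod 3)ˣ) : ZMod 3)).val = 1 from by decide, pow_one, map_div₀, map_add,
    map_neg, map_one, hg, map_ofNat] at h4
  rw [← h4]
  ring

end Vale.Agent.P022.H853
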