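import Vale.Agent.P022.H138.L3.Defs
import Vale.Agent.P022.H20.Frob
import Vale.Agent.P022.H853.L3.Cyc
import Vale.Agent.P022.H132.L3.Defs
import Vale.Agent.P022.H583.Cen

/-!
# P022-L3, chapter F: one module `V(3, M, n)` in operator form (helper853)
-/

open NumberField
open scoped MatrixGroups

noncomputable section

namespace Vale.Agent.P022.H853

open Vale.Agent.P022 Vale.Agent.P022.L3

/-- the Hecke and Galois actions on `V = V(3, M, n)` -/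
structure VD (M n : ℕ) where
  T : ℕ → AddMonoid.End (V 3 M n)
  D : ℤ → AddMonoid.End (V 3 M n)
  ρ : GQ →* AddMonoid.End (V 3 M n)
  isT : ∀ ℓ, Good 3 ℓ → ∀ φ : V 3 M n, IsT 3 M n ℓ φ (T ℓ φ)
  isD : ∀ a : ℤ, IsCoprime a 6 → ∀ φ : V 3 M n, IsD 3 M n a φ (D a φ)
  op : IsOpen (ρ.ker : Set GQ)
  two : ∀ g, ∃ k, ρ (g ^ 2 ^ k) = 1
  unr : ∀ ℓ, Good 3 ℓ → ∀ P : Ideal (𝓞 Qb), P.IsPrime → (ℓ : 𝓞 Qb) ∈ P → ∀ g : GQ,
    (∀ x : 𝓞 Qb, g • x - x ∈ P) → ρ g = 1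
  Dmul : ∀ a b : ℤ, IsCoprime a 6 → IsCoprime b 6 → D (a * b) = D a * D b
  Dcong : ∀ a b : ℤ, IsCoprime a 6 → ((3 * 2 ^ M : ℕ) : ℤ) ∣ a - b → D a = D b
  TT : ∀ ℓ ℓ', Good 3 ℓ → Good 3 ℓ' → T ℓ * T ℓ' = T ℓ' * T ℓ
  DT : ∀ a : ℤ, IsCoprime a 6 → ∀ ℓ, Good 3 ℓ → D a * T ℓ = T ℓ * D a
  ρT : ∀ ℓ, Good 3 ℓ → ∀ g, T ℓ * ρ g = ρ g * T ℓ
  ρD : ∀ a : ℤ, IsCoprime a 6 → ∀ g, D a * ρ g = ρ g * D a
  frob : ∀ ℓ, Good 3 ℓ → ∀ g : GQ, IsFrob ℓ g →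
    T ℓ = ρ g + (ℓ : AddMonoid.End (V 3 M n)) * D ℓ * ρ g⁻¹

/-- the matrices `δ_a` exist -/
theorem exists_isDel (M : ℕ) {a : ℤ} (ha : IsCoprime a 6) : ∃ δ : SL(2, ℤ), IsDel 3 M a δ := by
  have h1 : IsCoprime a ((3 : ℤ) * 2 ^ M) := by
    have h2 : IsCoprime a 2 := IsCoprime.of_mul_right_left (by norm_num; exact ha : IsCoprime a (2 * 3))
    have h3 : IsCoprime a 3 := IsCoprime.of_mul_right_right (by norm_num; exact ha : IsCoprime a (2 * 3))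
    exact h3.mul_right h2.pow_right
  obtain ⟨x, y, hxy⟩ := h1.mul_right h1
  refine ⟨⟨!![x, -((3 : ℤ) * 2 ^ M * y); (3 : ℤ) * 2 ^ M, a], ?_⟩, ?_, ?_, ?_⟩
  · rw [Matrix.det_fin_two_of]
    linear_combination hxy
  · show ((3 * 2 ^ M : ℕ) : ℤ) ∣ (3 : ℤ) * 2 ^ M
    push_cast
    exact dvd_rfl
  · show ((2 ^ M : ℕ) : ℤ) ∣ -((3 : ℤ) * 2 ^ M * y)
    push_cast
    exact ⟨-(3 * y), by ring⟩
  · show ((3 * 2 ^ M : ℕ) : ℤ) ∣ a - a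
    rw [sub_self]
    exact dvd_zero _

theorem good_coprime {ℓ : ℕ} (hℓ : Good 3 ℓ) : IsCoprime (ℓ : ℤ) 6 := by
  have h1 : Nat.Coprime ℓ (2 * 3) := (Nat.Prime.coprime_iff_not_dvd hℓ.1).2 hℓ.2
  have h2 := Nat.isCoprime_iff_coprime.2 h1
  norm_num at h2
  exact h2

/-- `[GAL]` and `[HEX]` in operator form -/
theorem exists_vd (hG : GALStmt) (hH : HEXStmt) {M : ℕ} (hM : 2 ≤ M) (n : ℕ) :
    Nonempty (VD M n) := by
  obtain ⟨T, D, hT, hD, Dm, Dc, DT, TT⟩ := hH 3 M n (Or.inr rfl) hM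
  obtain ⟨ρ, hop, htwo, hunr, hfrob, hρT, hρD⟩ := hG 3 M n rfl hM
  have h6 : (2 * ((3 : ℕ) : ℤ)) = 6 := by norm_num
  rw [h6] at hD Dm Dc DT hρD
  refine ⟨⟨T, D, (Units.coeHom _).comp ρ, hT, hD, ?_, ?_, ?_, Dm, Dc, TT, DT, ?_, ?_, ?_⟩⟩
  · have : ((Units.coeHom (AddMonoid.End (V 3 M n))).comp ρ).ker = ρ.ker := by
      ext g
      rw [MonoidHom.mem_ker, MonoidHom.mem_ker]
      exact Units.val_eq_one
    rw [this]
    exact hop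
  · intro g
    obtain ⟨k, hk⟩ := htwo g
    refine ⟨k, ?_⟩
    show ((ρ (g ^ 2 ^ k) : (AddMonoid.End (V 3 M n))ˣ) : AddMonoid.End (V 3 M n)) = 1
    rw [map_pow, hk, Units.val_one]
  · intro ℓ hℓ P hP hlP g hg
    show ((ρ g : (AddMonoid.End (V 3 M n))ˣ) : AddMonoid.End (V 3 M n)) = 1
    rw [hunr ℓ hℓ P hP hlP g hg, Units.val_one]
  · intro ℓ hℓ g
    obtain ⟨F, hF⟩ := H20.exists_isFrob hℓ.1
    ext φ : 1
    have e1 := hfrob ℓ hℓ F hF _ _ _ (hT ℓ hℓ ((ρ g : AddMonoid.End (V 3 M n)) φ))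
      (hD ℓ (good_coprime hℓ) ((ρ g : AddMonoid.End (V 3 M n)) φ))
    have e2 := hfrob ℓ hℓ F hF _ _ _ (hρT ℓ hℓ g φ (T ℓ φ) (hT ℓ hℓ φ))
      (hD ℓ (good_coprime hℓ) ((ρ g : AddMonoid.End (V 3 M n)) φ))
    exact e1.trans e2.symm
  · intro a ha g
    ext φ : 1
    obtain ⟨δ, hδ⟩ := exists_isDel M ha
    have e1 := hD a ha ((ρ g : AddMonoid.End (V 3 M n)) φ)
    have e2 := hρD a ha g φ (D a φ) (hD a ha φ)
    apply Subtype.ext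
    funext γ
    exact (e1 δ hδ γ).trans (e2 δ hδ γ).symm
  · intro ℓ hℓ g hg
    ext φ : 1
    have e1 := hfrob ℓ hℓ g hg φ _ _ (hT ℓ hℓ φ) (hD ℓ (good_coprime hℓ) φ)
    have e2 : ((ρ g⁻¹ : (AddMonoid.End (V 3 M n))ˣ) : AddMonoid.End (V 3 M n)) (D ℓ φ) =
        D ℓ (((ρ g⁻¹ : (AddMonoid.End (V 3 M n))ˣ) : AddMonoid.End (V 3 M n)) φ) := by
      obtain ⟨δ, hδ⟩ := exists_isDel M (good_coprime hℓ)
      have e3 := hD ℓ (good_coprime hℓ) (((ρ g⁻¹ : (AddMonoid.End (V 3 M n))ˣ) :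
        AddMonoid.End (V 3 M n)) φ)
      have e4 := hρD ℓ (good_coprime hℓ) g⁻¹ φ (D ℓ φ) (hD ℓ (good_coprime hℓ) φ)
      apply Subtype.ext
      funext γ
      exact (e4 δ hδ γ).trans (e3 δ hδ γ).symm
    rw [e2] at e1
    rw [e1, mul_assoc]
    show _ = (ρ g : AddMonoid.End (V 3 M n)) φ +
      (ℓ : AddMonoid.End (V 3 M n)) (D ℓ (((ρ g⁻¹ : (AddMonoid.End (V 3 M n))ˣ) :
        AddMonoid.End (V 3 M n)) φ))
    rw [AddMonoid.End.natCast_apply]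

namespace VD

variable {M n : ℕ} (v : VD M n)

theorem DD {a b : ℤ} (ha : IsCoprime a 6) (hb : IsCoprime b 6) : v.D a * v.D b = v.D b * v.D a := by
  rw [← v.Dmul a b ha hb, ← v.Dmul b a hb ha, mul_comm]

theorem D_one : v.D 1 = 1 := by
  ext φ : 1
  apply Subtype.ext
  funext γ
  have h := v.isD 1 isCoprime_one_left φ 1 ⟨dvd_zero _, dvd_zero _, ⟨0, by simp⟩⟩ γ
  rw [h, one_mul, inv_one, mul_one]
  rfl

theorem two_pow : ((2 ^ n : ℕ) : AddMonoid.End (V 3 M n)) = 0 := by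
  ext φ : 1
  rw [AddMonoid.End.natCast_apply]
  apply Subtype.ext
  funext γ
  show (2 ^ n : ℕ) • (φ : SL(2, ℤ) → ZMod (2 ^ n)) γ = 0
  rw [nsmul_eq_mul, ZMod.natCast_self, zero_mul]

theorem cast_congr {a b : ℕ} (h : a ≡ b [MOD 2 ^ n]) :
    (a : AddMonoid.End (V 3 M n)) = (b : AddMonoid.End (V 3 M n)) := by
  have key : ∀ c : ℕ, (c : AddMonoid.End (V 3 M n)) = ((c % 2 ^ n : ℕ) : AddMonoid.End (V 3 M n)) := by
    intro c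
    conv_lhs => rw [← Nat.div_add_mod c (2 ^ n), Nat.cast_add, Nat.cast_mul, two_pow, zero_mul,
      zero_add]
  rw [key a, key b, show a % 2 ^ n = b % 2 ^ n from h]

theorem D_congr {a b : ℕ} (ha : IsCoprime (a : ℤ) 6) (h : a ≡ b [MOD 3 * 2 ^ M]) :
    v.D a = v.D b := by
  refine v.Dcong a b ha ?_
  have := (Nat.modEq_iff_dvd.1 h.symm)
  exact this

end VD

instance neZero_mod (K : ℕ) : NeZero (3 * 2 ^ K) := ⟨by positivity⟩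

/-- the cyclotomic character modulo `3 * 2 ^ K`, as a natural number -/
def kn (K : ℕ) (g : GQ) : ℕ := (cyc (3 * 2 ^ K) g : ZMod (3 * 2 ^ K)).val

theorem kn_cast (K : ℕ) (g : GQ) : (kn K g : ZMod (3 * 2 ^ K)) = cyc (3 * 2 ^ K) g :=
  ZMod.natCast_zmod_val _

theorem kn_congr {K : ℕ} {g : GQ} {c : ℕ} (h : (c : ZMod (3 * 2 ^ K)) = cyc (3 * 2 ^ K) g) :
    kn K g ≡ c [MOD 3 * 2 ^ K] := by
  rw [← ZMod.natCast_eq_natCast_iff, kn_cast, h]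

theorem kn_mul (K : ℕ) (g h : GQ) : kn K (g * h) ≡ kn K g * kn K h [MOD 3 * 2 ^ K] := by
  refine kn_congr ?_
  rw [Nat.cast_mul, kn_cast, kn_cast, map_mul, Units.val_mul]

theorem kn_one (K : ℕ) : kn K 1 ≡ 1 [MOD 3 * 2 ^ K] := by
  refine kn_congr ?_
  rw [Nat.cast_one, map_one, Units.val_one]

theorem kn_mod {K K' : ℕ} (h : K ≤ K') (g : GQ) : kn K' g ≡ kn K g [MOD 3 * 2 ^ K] :=
  cyc_mod (3 * 2 ^ K') (Nat.mul_dvd_mul_left 3 (pow_dvd_pow 2 h)) g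

theorem kn_frob {K ℓ : ℕ} (hℓ : Good 3 ℓ) {g : GQ} (hg : IsFrob ℓ g) :
    kn K g ≡ ℓ [MOD 3 * 2 ^ K] := by
  refine kn_congr (cyc_frob hℓ.1 ?_ hg).symm
  intro h
  rcases (Nat.Prime.dvd_mul hℓ.1).1 h with h1 | h1
  · exact hℓ.2 (Dvd.dvd.mul_left h1 2)
  · exact hℓ.2 (Dvd.dvd.mul_right (hℓ.1.dvd_of_dvd_pow h1) 3)

theorem kn_coprime {K : ℕ} (hK : 1 ≤ K) (g : GQ) : IsCoprime (kn K g : ℤ) 6 := by
  have h1 : Nat.Coprime (kn K g) (3 * 2 ^ K) := ZMod.val_coe_unit_coprime _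
  have h2 : Nat.Coprime (kn K g) 6 := by
    refine Nat.Coprime.coprime_dvd_right ?_ h1
    obtain ⟨k, rfl⟩ : ∃ k, K = k + 1 := ⟨K - 1, by omega⟩
    exact ⟨2 ^ k, by ring⟩
  exact_mod_cast Nat.isCoprime_iff_coprime.2 h2

/-- the units modulo `3 * 2 ^ K` form a 2-group -/
theorem cyc_two (K : ℕ) (g : GQ) : cyc (3 * 2 ^ K) (g ^ 2 ^ (K + 1)) = 1 := by
  have hc : Fintype.card (ZMod (3 * 2 ^ K))ˣ ∣ 2 ^ (K + 1) := by
    rw [ZMod.card_units_eq_totient, Nat.totient_mul (Nat.Coprime.pow_right K (by norm_num))]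
    have h3 : Nat.totient 3 = 2 := by decide
    rw [h3]
    rcases Nat.eq_zero_or_pos K with rfl | hK
    · simp
    · rw [Nat.totient_prime_pow Nat.prime_two hK]
      obtain ⟨k, rfl⟩ : ∃ k, K = k + 1 := ⟨K - 1, by omega⟩
      exact ⟨2, by simp; ring⟩
  obtain ⟨k, hk⟩ := hc
  rw [map_pow, hk, pow_mul, pow_card_eq_one, one_pow]

theorem good_cyc (K : ℕ) : H132.Z.Good (cyc (3 * 2 ^ K)).ker where
  nor := inferInstance
  op := isOpen_cyc _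
  two g := ⟨K + 1, MonoidHom.mem_ker.2 (cyc_two K g)⟩
  unr ℓ hℓ h6 P hP hlP g hg := by
    rw [MonoidHom.mem_ker]
    have hℓ' : Good 3 ℓ := ⟨hℓ, h6⟩
    have hmP : ((3 * 2 ^ K : ℕ) : 𝓞 Qb) ∉ P := by
      intro h
      have h1 := H20.dvd_of_mem hℓ hP hlP (d := ((3 * 2 ^ K : ℕ) : ℤ)) (by exact_mod_cast h)
      have h2 : ℓ ∣ 3 * 2 ^ K := by exact_mod_cast h1
      rcases (Nat.Prime.dvd_mul hℓ).1 h2 with h3 | h3
      · exact hℓ'.2 (Dvd.dvd.mul_left h3 2)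
      · exact hℓ'.2 (Dvd.dvd.mul_right (hℓ.dvd_of_dvd_pow h3) 3)
    have h := cyc_of_pow (m := 3 * 2 ^ K) dvd_rfl hP hmP (q := 1) (g := g)
      (fun x => by rw [pow_one]; exact hg x)
    apply Units.ext
    have h4 := (ZMod.natCast_eq_natCast_iff _ _ _).2 h
    rw [ZMod.natCast_zmod_val] at h4
    rw [h4, Nat.cast_one, Units.val_one]

namespace VD

variable {M n : ℕ} (v : VD M n)

theorem good_ker : H132.Z.Good v.ρ.ker where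
  nor := inferInstance
  op := v.op
  two g := by
    obtain ⟨k, hk⟩ := v.two g
    exact ⟨k, MonoidHom.mem_ker.2 hk⟩
  unr ℓ hℓ h6 P hP hlP g hg := MonoidHom.mem_ker.2 (v.unr ℓ ⟨hℓ, h6⟩ P hP hlP g hg)

/-- the cyclotomic character as a scalar on `V` -/
def k (_v : VD M n) : GQ →* AddMonoid.End (V 3 M n) where
  toFun g := (kn (max M n + 1) g : AddMonoid.End (V 3 M n))
  map_one' := by
    rw [cast_congr ((kn_one (max M n + 1)).of_dvd (Dvd.dvd.mul_left (pow_dvd_pow 2 (by omega)) 3)),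
      Nat.cast_one]
  map_mul' g h := by
    rw [cast_congr ((kn_mul (max M n + 1) g h).of_dvd
      (Dvd.dvd.mul_left (pow_dvd_pow 2 (by omega)) 3)), Nat.cast_mul]

theorem k_eq {K c : ℕ} (hn : n ≤ K) {g : GQ} (hc : kn K g ≡ c [MOD 3 * 2 ^ K]) :
    v.k g = (c : AddMonoid.End (V 3 M n)) := by
  show (kn (max M n + 1) g : AddMonoid.End (V 3 M n)) = _
  refine cast_congr ?_
  have h0 : 2 ^ n ∣ 3 * 2 ^ n := Dvd.intro_left 3 rfl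
  have h1 : kn (max M n + 1) g ≡ kn n g [MOD 2 ^ n] :=
    (kn_mod (by omega) g).of_dvd h0
  have h2 : kn K g ≡ kn n g [MOD 2 ^ n] := (kn_mod hn g).of_dvd h0
  have h3 : kn K g ≡ c [MOD 2 ^ n] := hc.of_dvd (Dvd.dvd.mul_left (pow_dvd_pow 2 hn) 3)
  exact h1.trans (h2.symm.trans h3)

theorem D_eq {K K' c : ℕ} (hK1 : 1 ≤ K') (hM : M ≤ K) (hM' : M ≤ K') {g : GQ}
    (hc : kn K g ≡ c [MOD 3 * 2 ^ K]) : v.D (kn K' g) = v.D c := by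
  refine v.D_congr (kn_coprime hK1 g) ?_
  have h1 : kn K' g ≡ kn M g [MOD 3 * 2 ^ M] := kn_mod hM' g
  have h2 : kn K g ≡ kn M g [MOD 3 * 2 ^ M] := kn_mod hM g
  have h3 : kn K g ≡ c [MOD 3 * 2 ^ M] :=
    hc.of_dvd (Nat.mul_dvd_mul_left 3 (pow_dvd_pow 2 hM))
  exact h1.trans (h2.symm.trans h3)

/-- the diamond character `g ↦ D_κ(g)` -/
def dia : GQ →* AddMonoid.End (V 3 M n) where
  toFun g := v.D (kn (max M n + 1) g)
  map_one' := by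
    rw [v.D_eq (K := max M n + 1) (c := 1) (by omega) (by omega) (by omega) (kn_one _)]
    exact_mod_cast v.D_one
  map_mul' g h := by
    rw [v.D_eq (K := max M n + 1) (by omega) (by omega) (by omega) (kn_mul _ g h), Nat.cast_mul,
      v.Dmul _ _ (kn_coprime (by omega) g) (kn_coprime (by omega) h)]

theorem dia_eq {K c : ℕ} (hM : M ≤ K) {g : GQ} (hc : kn K g ≡ c [MOD 3 * 2 ^ K]) :
    v.dia g = v.D c := v.D_eq (by omega) hM (by omega) hc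

theorem k_comm (g : GQ) (x : AddMonoid.End (V 3 M n)) : v.k g * x = x * v.k g :=
  (Nat.cast_commute (kn (max M n + 1) g) x).eq

/-- `d(g) = κ(g) D_κ(g)` -/
def d : GQ →* AddMonoid.End (V 3 M n) where
  toFun g := v.k g * v.dia g
  map_one' := by rw [map_one, map_one, one_mul]
  map_mul' g h := by
    rw [map_mul, map_mul, mul_assoc, mul_assoc, ← mul_assoc (v.k h), v.k_comm h (v.dia g),
      mul_assoc]

theorem k_frob {ℓ : ℕ} (hℓ : Good 3 ℓ) {g : GQ} (hg : IsFrob ℓ g) :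
    v.k g = (ℓ : AddMonoid.End (V 3 M n)) := v.k_eq (le_refl n) (kn_frob hℓ hg)

theorem dia_frob {ℓ : ℕ} (hℓ : Good 3 ℓ) {g : GQ} (hg : IsFrob ℓ g) : v.dia g = v.D ℓ :=
  v.dia_eq (le_refl M) (kn_frob hℓ hg)

theorem d_frob {ℓ : ℕ} (hℓ : Good 3 ℓ) {g : GQ} (hg : IsFrob ℓ g) :
    v.d g = (ℓ : AddMonoid.End (V 3 M n)) * v.D ℓ := by
  show v.k g * v.dia g = _
  rw [v.k_frob hℓ hg, v.dia_frob hℓ hg]

/-- `T_ℓ = t(Frob_ℓ)` -/
theorem T_frob {ℓ : ℕ} (hℓ : Good 3 ℓ) {g : GQ} (hg : IsFrob ℓ g) :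
    v.T ℓ = H583.tt v.ρ v.d g := by
  rw [H583.tt, v.d_frob hℓ hg, ← v.frob ℓ hℓ g hg]

theorem dia_T {ℓ : ℕ} (hℓ : Good 3 ℓ) (g : GQ) : v.dia g * v.T ℓ = v.T ℓ * v.dia g :=
  v.DT _ (kn_coprime (by omega) g) ℓ hℓ

theorem dia_ρ (g h : GQ) : v.dia g * v.ρ h = v.ρ h * v.dia g :=
  v.ρD _ (kn_coprime (by omega) g) h

theorem dia_D (g : GQ) {a : ℤ} (ha : IsCoprime a 6) : v.dia g * v.D a = v.D a * v.dia g :=
  v.DD (kn_coprime (by omega) g) ha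

theorem k_of_mem {K : ℕ} (hn : n ≤ K) {u : GQ} (hu : u ∈ (cyc (3 * 2 ^ K)).ker) : v.k u = 1 := by
  rw [v.k_eq (c := 1) hn (kn_congr (by rw [MonoidHom.mem_ker.1 hu, Nat.cast_one, Units.val_one])),
    Nat.cast_one]

theorem dia_of_mem {K : ℕ} (hM : M ≤ K) {u : GQ} (hu : u ∈ (cyc (3 * 2 ^ K)).ker) :
    v.dia u = 1 := by
  rw [v.dia_eq (c := 1) hM (kn_congr (by rw [MonoidHom.mem_ker.1 hu, Nat.cast_one, Units.val_one]))]
  exact_mod_cast v.D_one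

end VD

end Vale.Agent.P022.H853
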