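import Vale.Agent.P022.H853.L3.VD
import Vale.Agent.P022.H853.L3.Dens

/-!
# P022-L3, chapter F: `t(g)` lies in the Hecke algebra for every `g` (helper853)
-/

open NumberField

noncomputable section

namespace Vale.Agent.P022.H853

open Vale.Agent.P022 Vale.Agent.P022.L3 Vale.Agent.P022.H583

theorem good_of_notMem {ℓ : ℕ} (hℓ : ℓ.Prime) (h : ℓ ∉ ({2, 3} : Finset ℕ)) : Good 3 ℓ := by
  refine ⟨hℓ, fun h6 => h ?_⟩
  rcases (Nat.Prime.dvd_mul hℓ).1 h6 with h1 | h1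
  · rw [(Nat.prime_dvd_prime_iff_eq hℓ Nat.prime_two).1 h1]
    simp
  · rw [(Nat.prime_dvd_prime_iff_eq hℓ Nat.prime_three).1 h1]
    simp

/-- a uniform exponent -/
theorem exists_exp {U : Subgroup GQ} (hn : U.Normal) (hop : IsOpen (U : Set GQ))
    (htwo : ∀ g : GQ, ∃ k, g ^ 2 ^ k ∈ U) : ∃ n, ∀ g : GQ, g ^ 2 ^ n ∈ U := by
  have hfin : Finite (GQ ⧸ U) := U.quotient_finite_of_isOpen hop
  have h1 : ∀ x : GQ ⧸ U, ∃ k, x ^ 2 ^ k = 1 := by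
    intro x
    obtain ⟨g, rfl⟩ := QuotientGroup.mk_surjective x
    obtain ⟨k, hk⟩ := htwo g
    exact ⟨k, by rw [← QuotientGroup.mk_pow]; exact (QuotientGroup.eq_one_iff _).2 hk⟩
  choose k hk using h1
  obtain ⟨n, hn'⟩ := (Set.finite_range k).bddAbove
  refine ⟨n, fun g => ?_⟩
  rw [← QuotientGroup.eq_one_iff, QuotientGroup.mk_pow]
  have h2 : k (g : GQ ⧸ U) ≤ n := hn' ⟨_, rfl⟩
  rw [← Nat.sub_add_cancel h2, add_comm, pow_add, pow_mul, hk, one_pow]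

/-- **[CEN] with [F-DENS]**: any frame `ρ, d, S` for which `t(Frob_ℓ) ∈ S` for all `ℓ ∤ 6` has
`t(g) ∈ S` for every `g` -/
theorem cenQ {A : Type*} [Ring A] {ρ d : GQ →* A} {S : Subring A} (hF : Fr ρ d S)
    (hop : IsOpen ((ρ.ker ⊓ d.ker : Subgroup GQ) : Set GQ))
    (htwo : ∀ g : GQ, ∃ k, ρ (g ^ 2 ^ k) = 1 ∧ d (g ^ 2 ^ k) = 1)
    (hfrob : ∀ ℓ, Good 3 ℓ → ∀ φ : GQ, IsFrob ℓ φ → tt ρ d φ ∈ S) (g : GQ) : tt ρ d g ∈ S := by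
  have htwo' : ∀ g : GQ, ∃ k, g ^ 2 ^ k ∈ ρ.ker ⊓ d.ker := fun g => by
    obtain ⟨k, h1, h2⟩ := htwo g
    exact ⟨k, Subgroup.mem_inf.2 ⟨MonoidHom.mem_ker.2 h1, MonoidHom.mem_ker.2 h2⟩⟩
  obtain ⟨n, hn⟩ := exists_exp inferInstance hop htwo'
  refine cen hF n (fun g => MonoidHom.mem_ker.1 (Subgroup.mem_inf.1 (hn g)).1)
    (fun g => MonoidHom.mem_ker.1 (Subgroup.mem_inf.1 (hn g)).2) (fun g => ?_) g
  obtain ⟨ℓ, hℓ, hℓS, P, hP, hlP, φ, hφ, m, hm, hr⟩ := dens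
    (QuotientGroup.mk' (ρ.ker ⊓ d.ker)) (by rw [QuotientGroup.ker_mk']; exact hop)
    (fun g => ⟨n, by
      rw [← map_pow]
      exact (QuotientGroup.eq_one_iff _).2 (hn g)⟩) g {2, 3}
  have h1 : (g ^ m)⁻¹ * φ ∈ ρ.ker ⊓ d.ker := by
    rw [← QuotientGroup.eq, QuotientGroup.mk_pow]
    exact hr.symm
  have h2 : ∀ f : GQ →* A, (g ^ m)⁻¹ * φ ∈ f.ker → f φ = f (g ^ m) := by
    intro f hf
    have h3 : φ = g ^ m * ((g ^ m)⁻¹ * φ) := by group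
    rw [h3, map_mul, MonoidHom.mem_ker.1 hf, mul_one]
  exact ⟨m, φ, hm, hfrob ℓ (good_of_notMem hℓ hℓS) φ ⟨P, hP, hlP, hφ⟩,
    h2 ρ (Subgroup.mem_inf.1 h1).1, h2 d (Subgroup.mem_inf.1 h1).2⟩

end Vale.Agent.P022.H853
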